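import Mathlib

set_option autoImplicit false

open Finset

namespace Vale.Agent.helper6.L

noncomputable section

variable {ι κ : Type*} [Fintype ι] [Fintype κ]

lemma exp_chord (θ S z : ℝ) (hS : 0 < S) (hz0 : 0 ≤ z) (hz1 : z ≤ S) :
    Real.exp (θ * z) ≤ 1 + (z / S) * (Real.exp (θ * S) - 1) := by
  have h1 : 0 ≤ z / S := div_nonneg hz0 hS.le
  have h2 : z / S ≤ 1 := (div_le_one hS).mpr hz1
  have hconv := convexOn_exp.2 (Set.mem_univ (0 : ℝ)) (Set.mem_univ (θ * S))
    (sub_nonneg.mpr h2) h1 (by ring)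
  simp only [smul_eq_mul, mul_zero, zero_add, Real.exp_zero, mul_one] at hconv
  have h3 : z / S * (θ * S) = θ * z := by
    field_simp
  rw [h3] at hconv
  linarith

/-- The exponential moment of one sample. -/
lemma one_moment (q z : ι → ℝ) (S θ : ℝ) (hS : 0 < S) (hq : ∀ i, 0 ≤ q i)
    (hz0 : ∀ i, 0 ≤ z i) (hz1 : ∀ i, z i ≤ S) (hq1 : ∑ i, q i = 1) (hz : ∑ i, q i * z i = 1) :
    ∑ i, q i * Real.exp (θ * z i) ≤ Real.exp ((Real.exp (θ * S) - 1) / S) := by
  have h1 : ∑ i, q i * Real.exp (θ * z i)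
      ≤ ∑ i, q i * (1 + (z i / S) * (Real.exp (θ * S) - 1)) :=
    sum_le_sum (fun i _ => mul_le_mul_of_nonneg_left (exp_chord θ S (z i) hS (hz0 i) (hz1 i)) (hq i))
  have h2 : ∑ i, q i * (1 + (z i / S) * (Real.exp (θ * S) - 1))
      = ∑ i, q i + (∑ i, q i * z i) * ((Real.exp (θ * S) - 1) / S) := by
    rw [sum_mul, ← sum_add_distrib]
    refine sum_congr rfl (fun i _ => ?_)
    field_simp
  rw [h2, hq1, hz, one_mul, add_comm] at h1
  exact h1.trans (Real.add_one_le_exp _)

/-- Weight of a sample sequence. -/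
def wt {N : ℕ} (q : ι → ℝ) (I : Fin N → ι) : ℝ := ∏ j, q (I j)

lemma wt_nonneg {N : ℕ} {q : ι → ℝ} (hq : ∀ i, 0 ≤ q i) (I : Fin N → ι) : 0 ≤ wt q I :=
  prod_nonneg (fun j _ => hq _)

lemma sum_wt {N : ℕ} (q : ι → ℝ) (hq1 : ∑ i, q i = 1) : ∑ I : Fin N → ι, wt q I = 1 := by
  classical
  have := Fintype.sum_pow q N
  rw [hq1, one_pow] at this
  exact this.symm

/-- The exponential moment of the sum of `N` samples. -/
lemma moment (q z : ι → ℝ) (S θ : ℝ) (N : ℕ) (hS : 0 < S) (hq : ∀ i, 0 ≤ q i)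
    (hz0 : ∀ i, 0 ≤ z i) (hz1 : ∀ i, z i ≤ S) (hq1 : ∑ i, q i = 1) (hz : ∑ i, q i * z i = 1) :
    ∑ I : Fin N → ι, wt q I * Real.exp (θ * ∑ j, z (I j))
      ≤ Real.exp (N * ((Real.exp (θ * S) - 1) / S)) := by
  classical
  have h1 : ∀ I : Fin N → ι, wt q I * Real.exp (θ * ∑ j, z (I j))
      = ∏ j, (q (I j) * Real.exp (θ * z (I j))) := by
    intro I
    rw [prod_mul_distrib, mul_sum, Real.exp_sum]
    rfl
  simp_rw [h1]
  have h2 := Fintype.sum_pow (fun i => q i * Real.exp (θ * z i)) N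
  rw [← h2]
  have h3 := one_moment q z S θ hS hq hz0 hz1 hq1 hz
  have h4 : 0 ≤ ∑ i, q i * Real.exp (θ * z i) :=
    sum_nonneg (fun i _ => mul_nonneg (hq i) (Real.exp_pos _).le)
  calc (∑ i, q i * Real.exp (θ * z i)) ^ N
      ≤ (Real.exp ((Real.exp (θ * S) - 1) / S)) ^ N := pow_le_pow_left₀ h4 h3 N
    _ = _ := by rw [← Real.exp_nat_mul]

/-- Markov's inequality for the exponential moment. -/
lemma bad_bound (q z : ι → ℝ) (S θ t : ℝ) (N : ℕ) (hS : 0 < S) (hq : ∀ i, 0 ≤ q i)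
    (hz0 : ∀ i, 0 ≤ z i) (hz1 : ∀ i, z i ≤ S) (hq1 : ∑ i, q i = 1) (hz : ∑ i, q i * z i = 1)
    (B : Finset (Fin N → ι)) (hB : ∀ I ∈ B, 0 ≤ θ * (∑ j, z (I j) - t)) :
    ∑ I ∈ B, wt q I ≤ Real.exp (-(θ * t) + N * ((Real.exp (θ * S) - 1) / S)) := by
  have h1 : ∑ I ∈ B, wt q I
      ≤ ∑ I ∈ B, wt q I * Real.exp (θ * (∑ j, z (I j) - t)) := by
    refine sum_le_sum (fun I hI => ?_)
    have : 1 ≤ Real.exp (θ * (∑ j, z (I j) - t)) := Real.one_le_exp (hB I hI)
    nlinarith [wt_nonneg hq I]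
  have h2 : ∑ I ∈ B, wt q I * Real.exp (θ * (∑ j, z (I j) - t))
      ≤ ∑ I : Fin N → ι, wt q I * Real.exp (θ * (∑ j, z (I j) - t)) :=
    sum_le_sum_of_subset_of_nonneg (subset_univ _)
      (fun I _ _ => mul_nonneg (wt_nonneg hq I) (Real.exp_pos _).le)
  have h3 : ∑ I : Fin N → ι, wt q I * Real.exp (θ * (∑ j, z (I j) - t))
      = Real.exp (-(θ * t)) * ∑ I : Fin N → ι, wt q I * Real.exp (θ * ∑ j, z (I j)) := by
    rw [mul_sum]
    refine sum_congr rfl (fun I _ => ?_)
    have : θ * (∑ j, z (I j) - t) = -(θ * t) + θ * ∑ j, z (I j) := by ring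
    rw [this, Real.exp_add]
    ring
  have h4 := moment q z S θ N hS hq hz0 hz1 hq1 hz
  calc ∑ I ∈ B, wt q I ≤ _ := h1.trans h2
    _ = _ := h3
    _ ≤ Real.exp (-(θ * t)) * Real.exp (N * ((Real.exp (θ * S) - 1) / S)) :=
        mul_le_mul_of_nonneg_left h4 (Real.exp_pos _).le
    _ = _ := by rw [Real.exp_add]

lemma kap_up_pos {η : ℝ} (h0 : 0 < η) : 0 < (1 + η) * Real.log (1 + η) - η := by
  have h1 : (0 : ℝ) < 1 + η := by linarith
  have h2 : (1 + η)⁻¹ ≠ 1 := by
    intro h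
    have : 1 + η = 1 := by
      have := inv_eq_one.mp h
      exact this
    linarith
  have h3 := Real.log_lt_sub_one_of_pos (inv_pos.mpr h1) h2
  rw [Real.log_inv] at h3
  have h4 : (1 + η) * ((1 + η)⁻¹ - 1) = -η := by
    field_simp
    ring
  nlinarith [mul_lt_mul_of_pos_left h3 h1]

lemma kap_low_pos {η : ℝ} (h0 : 0 < η) (h1 : η < 1) : 0 < (1 - η) * Real.log (1 - η) + η := by
  have h2 : (0 : ℝ) < 1 - η := by linarith
  have h3 : (1 - η)⁻¹ ≠ 1 := by
    intro h
    have : 1 - η = 1 := inv_eq_one.mp h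
    linarith
  have h4 := Real.log_lt_sub_one_of_pos (inv_pos.mpr h2) h3
  rw [Real.log_inv] at h4
  have h5 : (1 - η) * ((1 - η)⁻¹ - 1) = η := by
    field_simp
    ring
  nlinarith [mul_lt_mul_of_pos_left h4 h2]

/-- Importance sampling: given a probability vector `q` and a finite family of functions `z c`
with values in `[0, S]` and mean one, `N` samples (of positive weight) keep all the averages
within `1 ± η`, as soon as the union bound is below one. -/
theorem exists_sample (q : ι → ℝ) (z : κ → ι → ℝ) (S η kap : ℝ) (N : ℕ) (hS : 0 < S)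
    (hq : ∀ i, 0 ≤ q i) (hq1 : ∑ i, q i = 1)
    (hz0 : ∀ c i, 0 ≤ z c i) (hz1 : ∀ c i, z c i ≤ S) (hz : ∀ c, ∑ i, q i * z c i = 1)
    (hη0 : 0 < η) (hη1 : η < 1)
    (hk1 : kap ≤ (1 + η) * Real.log (1 + η) - η) (hk2 : kap ≤ (1 - η) * Real.log (1 - η) + η)
    (hunion : 2 * (Fintype.card κ : ℝ) * Real.exp (-(N * kap / S)) < 1) :
    ∃ I : Fin N → ι, (∀ j, 0 < q (I j)) ∧
      ∀ c, (1 - η) * N ≤ ∑ j, z c (I j) ∧ ∑ j, z c (I j) ≤ (1 + η) * N := by
  classical
  -- bad sets
  let Bu : κ → Finset (Fin N → ι) := fun c => univ.filter (fun I => (1 + η) * N < ∑ j, z c (I j))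
  let Bl : κ → Finset (Fin N → ι) := fun c => univ.filter (fun I => ∑ j, z c (I j) < (1 - η) * N)
  have hlog1 : 0 < Real.log (1 + η) := Real.log_pos (by linarith)
  have hlog2 : Real.log (1 - η) < 0 := Real.log_neg (by linarith) (by linarith)
  have hBu : ∀ c, ∑ I ∈ Bu c, wt q I ≤ Real.exp (-(N * kap / S)) := by
    intro c
    have h := bad_bound q (z c) S (Real.log (1 + η) / S) ((1 + η) * N) N hS hq (hz0 c) (hz1 c) hq1
      (hz c) (Bu c) (by
        intro I hI
        have hI' : (1 + η) * N < ∑ j, z c (I j) := (mem_filter.mp hI).2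
        exact mul_nonneg (div_nonneg hlog1.le hS.le) (by linarith))
    refine h.trans (Real.exp_le_exp.mpr ?_)
    have he : Real.exp (Real.log (1 + η) / S * S) = 1 + η := by
      rw [div_mul_cancel₀ _ hS.ne', Real.exp_log (by linarith)]
    rw [he]
    have hN : (0 : ℝ) ≤ N := Nat.cast_nonneg N
    have : -(Real.log (1 + η) / S * ((1 + η) * N)) + N * ((1 + η - 1) / S)
        = -(N * ((1 + η) * Real.log (1 + η) - η) / S) := by
      field_simp
      ring
    rw [this]
    apply neg_le_neg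
    apply div_le_div_of_nonneg_right _ hS.le
    exact mul_le_mul_of_nonneg_left hk1 hN
  have hBl : ∀ c, ∑ I ∈ Bl c, wt q I ≤ Real.exp (-(N * kap / S)) := by
    intro c
    have h := bad_bound q (z c) S (Real.log (1 - η) / S) ((1 - η) * N) N hS hq (hz0 c) (hz1 c) hq1
      (hz c) (Bl c) (by
        intro I hI
        have hI' : ∑ j, z c (I j) < (1 - η) * N := (mem_filter.mp hI).2
        exact mul_nonneg_of_nonpos_of_nonpos (div_nonpos_of_nonpos_of_nonneg hlog2.le hS.le)
          (by linarith))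
    refine h.trans (Real.exp_le_exp.mpr ?_)
    have he : Real.exp (Real.log (1 - η) / S * S) = 1 - η := by
      rw [div_mul_cancel₀ _ hS.ne', Real.exp_log (by linarith)]
    rw [he]
    have hN : (0 : ℝ) ≤ N := Nat.cast_nonneg N
    have : -(Real.log (1 - η) / S * ((1 - η) * N)) + N * ((1 - η - 1) / S)
        = -(N * ((1 - η) * Real.log (1 - η) + η) / S) := by
      field_simp
      ring
    rw [this]
    apply neg_le_neg
    apply div_le_div_of_nonneg_right _ hS.le
    exact mul_le_mul_of_nonneg_left hk2 hN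
  -- a good sequence exists
  by_contra hcon
  push Not at hcon
  -- count only the sequences of positive weight: use the union bound differently
  have hsum : ∑ c : κ, (∑ J ∈ Bu c, wt q J + ∑ J ∈ Bl c, wt q J)
      ≤ 2 * (Fintype.card κ : ℝ) * Real.exp (-(N * kap / S)) := by
    calc _ ≤ ∑ _c : κ, (Real.exp (-(N * kap / S)) + Real.exp (-(N * kap / S))) :=
          sum_le_sum (fun c _ => add_le_add (hBu c) (hBl c))
      _ = _ := by
          rw [sum_const, card_univ, nsmul_eq_mul]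
          ring
  have hpt : ∀ I : Fin N → ι, wt q I ≤ ∑ c : κ,
      ((if I ∈ Bu c then wt q I else 0) + (if I ∈ Bl c then wt q I else 0)) := by
    intro I
    have hnn : ∀ c : κ, 0 ≤ (if I ∈ Bu c then wt q I else 0) + (if I ∈ Bl c then wt q I else 0) := by
      intro c
      have := wt_nonneg hq I
      split_ifs <;> simp <;> linarith
    by_cases hpos : ∀ j, 0 < q (I j)
    · obtain ⟨c, hc⟩ := hcon I hpos
      have h1 := single_le_sum (f := fun c : κ =>
        (if I ∈ Bu c then wt q I else 0) + (if I ∈ Bl c then wt q I else 0))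
        (fun c _ => hnn c) (mem_univ c)
      refine le_trans ?_ h1
      have hw := wt_nonneg hq I
      by_cases hlow : (1 - η) * N ≤ ∑ j, z c (I j)
      · have hm : I ∈ Bu c := mem_filter.mpr ⟨mem_univ _, hc hlow⟩
        simp only [hm, if_true]
        split_ifs <;> linarith
      · have hm : I ∈ Bl c := mem_filter.mpr ⟨mem_univ _, not_le.mp hlow⟩
        simp only [hm, if_true]
        split_ifs <;> linarith
    · push Not at hpos
      obtain ⟨j, hj⟩ := hpos
      have hz' : q (I j) = 0 := le_antisymm hj (hq _)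
      have : wt q I = 0 := prod_eq_zero (mem_univ j) hz'
      rw [this]
      exact sum_nonneg (fun c _ => by simp)
  have h1 : (1 : ℝ) ≤ ∑ c : κ, (∑ J ∈ Bu c, wt q J + ∑ J ∈ Bl c, wt q J) := by
    calc (1 : ℝ) = ∑ I : Fin N → ι, wt q I := (sum_wt q hq1).symm
      _ ≤ ∑ I : Fin N → ι, ∑ c : κ,
          ((if I ∈ Bu c then wt q I else 0) + (if I ∈ Bl c then wt q I else 0)) :=
          sum_le_sum (fun I _ => hpt I)
      _ = ∑ c : κ, ∑ I : Fin N → ι,
          ((if I ∈ Bu c then wt q I else 0) + (if I ∈ Bl c then wt q I else 0)) := sum_comm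
      _ = _ := by
          refine sum_congr rfl (fun c _ => ?_)
          rw [sum_add_distrib, sum_ite_mem, sum_ite_mem, univ_inter, univ_inter]
  linarith

end

end Vale.Agent.helper6.L
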