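import Mathlib

set_option autoImplicit false

open Finset

namespace Vale.Agent.helper6.L

noncomputable section
open Classical

variable {V : Type*} [Fintype V]

/-- Closed ball of radius `r` around `v` in the graph `G` (number of hops at most `r`). -/
def ball (G : SimpleGraph V) (v : V) : ℕ → Finset V
  | 0 => {v}
  | r + 1 => ball G v r ∪ (ball G v r).biUnion (fun u => univ.filter (fun w => G.Adj u w))

lemma ball_subset_succ (G : SimpleGraph V) (v : V) (r : ℕ) :
    ball G v r ⊆ ball G v (r + 1) := by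
  intro w hw
  simp only [ball, mem_union]
  exact Or.inl hw

lemma ball_mono_radius (G : SimpleGraph V) (v : V) {r s : ℕ} (h : r ≤ s) :
    ball G v r ⊆ ball G v s := by
  induction s, h using Nat.le_induction with
  | base => exact Subset.refl _
  | succ s _ ih => exact ih.trans (ball_subset_succ G v s)

lemma self_mem_ball (G : SimpleGraph V) (v : V) (r : ℕ) : v ∈ ball G v r :=
  ball_mono_radius G v (Nat.zero_le r) (by simp [ball])

lemma ball_mono_graph {G G' : SimpleGraph V} (h : G ≤ G') (v : V) (r : ℕ) :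
    ball G v r ⊆ ball G' v r := by
  induction r with
  | zero => exact Subset.refl _
  | succ r ih =>
    intro w hw
    simp only [ball, mem_union, mem_biUnion, mem_filter, mem_univ, true_and] at hw ⊢
    rcases hw with hw | ⟨u, hu, huw⟩
    · exact Or.inl (ih hw)
    · exact Or.inr ⟨u, ih hu, h huw⟩

lemma ball_step {G : SimpleGraph V} {a b : V} (h : G.Adj a b) (r : ℕ) :
    ball G b r ⊆ ball G a (r + 1) := by
  induction r with
  | zero =>
    intro w hw
    simp only [ball, mem_singleton] at hw
    subst hw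
    simp only [ball, mem_union, mem_biUnion, mem_filter, mem_univ, true_and, mem_singleton]
    exact Or.inr ⟨a, rfl, h⟩
  | succ r ih =>
    intro w hw
    simp only [ball, mem_union, mem_biUnion, mem_filter, mem_univ, true_and] at hw
    rcases hw with hw | ⟨u, hu, huw⟩
    · exact ball_subset_succ G a (r + 1) (ih hw)
    · have hu' := ih hu
      simp only [ball, mem_union, mem_biUnion, mem_filter, mem_univ, true_and] at hu' ⊢
      exact Or.inr ⟨u, hu', huw⟩

lemma exists_walk_of_mem_ball {G : SimpleGraph V} {v w : V} {r : ℕ} (h : w ∈ ball G v r) :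
    ∃ p : G.Walk v w, p.length ≤ r := by
  induction r generalizing w with
  | zero =>
    simp only [ball, mem_singleton] at h
    subst h
    exact ⟨SimpleGraph.Walk.nil, by simp⟩
  | succ r ih =>
    simp only [ball, mem_union, mem_biUnion, mem_filter, mem_univ, true_and] at h
    rcases h with h | ⟨u, hu, huw⟩
    · obtain ⟨p, hp⟩ := ih h
      exact ⟨p, by omega⟩
    · obtain ⟨p, hp⟩ := ih hu
      refine ⟨p.append (SimpleGraph.Walk.cons huw SimpleGraph.Walk.nil), ?_⟩
      simp only [SimpleGraph.Walk.length_append, SimpleGraph.Walk.length_cons,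
        SimpleGraph.Walk.length_nil]
      omega

/-- Product of the ball sizes around `v` at radii `1, …, R`. -/
def T (G : SimpleGraph V) (R : ℕ) (v : V) : ℕ := ∏ r ∈ range R, (ball G v (r + 1)).card

/-- The potential of a graph: product over all vertices of `T`. -/
def pot (G : SimpleGraph V) (R : ℕ) : ℕ := ∏ v, T G R v

lemma telescope (α β α' β' : ℕ → ℕ) (h0a : α 0 = 1) (h0b : β 0 = 1) (R : ℕ)
    (h1 : ∀ r < R, α (r + 1) + β r ≤ α' (r + 1)) (h2 : ∀ r < R, β (r + 1) + α r ≤ β' (r + 1)) :
    16 ^ R * (∏ r ∈ range R, (α (r + 1) * β (r + 1))) ^ 2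
      ≤ (∏ r ∈ range R, (α' (r + 1) * β' (r + 1))) ^ 2 * (α R * β R) := by
  induction R with
  | zero => simp [h0a, h0b]
  | succ R ih =>
    have ih' := ih (fun r hr => h1 r (by omega)) (fun r hr => h2 r (by omega))
    have e1 := h1 R (by omega)
    have e2 := h2 R (by omega)
    rw [prod_range_succ, prod_range_succ]
    set X := ∏ r ∈ range R, (α (r + 1) * β (r + 1)) with hX
    set X' := ∏ r ∈ range R, (α' (r + 1) * β' (r + 1)) with hX'
    set A := α (R + 1)
    set B := β (R + 1)
    set a := α R
    set b := β R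
    set A' := α' (R + 1)
    set B' := β' (R + 1)
    have h4a : 4 * (A * b) ≤ A' ^ 2 := by
      have : A' ^ 2 ≥ (A + b) ^ 2 := Nat.pow_le_pow_left e1 2
      have h : 4 * (A * b) ≤ (A + b) ^ 2 := by
        zify
        nlinarith [sq_nonneg ((A : ℤ) - b)]
      omega
    have h4b : 4 * (B * a) ≤ B' ^ 2 := by
      have : B' ^ 2 ≥ (B + a) ^ 2 := Nat.pow_le_pow_left e2 2
      have h : 4 * (B * a) ≤ (B + a) ^ 2 := by
        zify
        nlinarith [sq_nonneg ((B : ℤ) - a)]
      omega
    have h16 : 16 * ((A * b) * (B * a)) ≤ (A' * B') ^ 2 := by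
      have := Nat.mul_le_mul h4a h4b
      calc 16 * ((A * b) * (B * a)) = (4 * (A * b)) * (4 * (B * a)) := by ring
        _ ≤ A' ^ 2 * B' ^ 2 := this
        _ = (A' * B') ^ 2 := by ring
    calc 16 ^ (R + 1) * (X * (A * B)) ^ 2
        = 16 * (A * B) ^ 2 * (16 ^ R * X ^ 2) := by ring
      _ ≤ 16 * (A * B) ^ 2 * (X' ^ 2 * (a * b)) := Nat.mul_le_mul_left _ ih'
      _ = X' ^ 2 * (16 * ((A * b) * (B * a))) * (A * B) := by ring
      _ ≤ X' ^ 2 * (A' * B') ^ 2 * (A * B) :=
          Nat.mul_le_mul_right _ (Nat.mul_le_mul_left _ h16)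
      _ = (X' * (A' * B')) ^ 2 * (A * B) := by ring

lemma T_mono {G G' : SimpleGraph V} (h : G ≤ G') (R : ℕ) (v : V) : T G R v ≤ T G' R v :=
  prod_le_prod (fun _ _ => Nat.zero_le _)
    (fun r _ => card_le_card (ball_mono_graph h v (r + 1)))

lemma T_pos (G : SimpleGraph V) (R : ℕ) (v : V) : 0 < T G R v :=
  prod_pos (fun r _ => card_pos.mpr ⟨v, self_mem_ball G v (r + 1)⟩)

lemma key_pair {G G' : SimpleGraph V} (hle : G ≤ G') {a b : V} (hadj : G'.Adj a b) (R : ℕ)
    (hdisj : Disjoint (ball G a R) (ball G b R)) (hn : Fintype.card V ≤ 2 ^ R) :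
    2 ^ R * (T G R a * T G R b) ≤ T G' R a * T G' R b := by
  classical
  have hcard : ∀ {x y : V}, G'.Adj x y → Disjoint (ball G x R) (ball G y R) → ∀ r < R,
      (ball G x (r + 1)).card + (ball G y r).card ≤ (ball G' x (r + 1)).card := by
    intro x y hxy hd r hr
    have hsub : ball G x (r + 1) ∪ ball G y r ⊆ ball G' x (r + 1) := by
      apply union_subset (ball_mono_graph hle x (r + 1))
      exact (ball_mono_graph hle y r).trans (ball_step hxy r)
    have hd' : Disjoint (ball G x (r + 1)) (ball G y r) :=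
      Finset.disjoint_of_subset_left (ball_mono_radius G x (by omega))
        (Finset.disjoint_of_subset_right (ball_mono_radius G y (by omega)) hd)
    calc _ = (ball G x (r + 1) ∪ ball G y r).card := (card_union_of_disjoint hd').symm
      _ ≤ _ := card_le_card hsub
  have htel := telescope (fun r => (ball G a r).card) (fun r => (ball G b r).card)
    (fun r => (ball G' a r).card) (fun r => (ball G' b r).card)
    (by simp [ball]) (by simp [ball]) R (hcard hadj hdisj) (hcard hadj.symm hdisj.symm)
  beta_reduce at htel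
  have hTa : ∀ H : SimpleGraph V, ∏ r ∈ range R, ((ball H a (r + 1)).card * (ball H b (r + 1)).card)
      = T H R a * T H R b := by
    intro H
    simp only [T, prod_mul_distrib]
  rw [hTa, hTa] at htel
  set X := T G R a * T G R b
  set X' := T G' R a * T G' R b
  set n := Fintype.card V
  have hnpos : 0 < n := by
    exact Fintype.card_pos_iff.mpr ⟨a⟩
  have hAB : (ball G a R).card * (ball G b R).card ≤ n * n :=
    Nat.mul_le_mul (card_le_univ _) (card_le_univ _)
  have h1 : 16 ^ R * X ^ 2 ≤ X' ^ 2 * (n * n) :=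
    htel.trans (Nat.mul_le_mul_left _ hAB)
  have h2 : (2 ^ R) ^ 2 * (n * n) ≤ 16 ^ R := by
    have : (16 : ℕ) ^ R = (2 ^ R) ^ 2 * (2 ^ R * 2 ^ R) := by
      have h16 : (16 : ℕ) ^ R = (2 ^ R) ^ 4 := by
        rw [← pow_mul, mul_comm, pow_mul]
        norm_num
      rw [h16]
      ring
    rw [this]
    exact Nat.mul_le_mul_left _ (Nat.mul_le_mul hn hn)
  have h3 : (n * n) * (2 ^ R * X) ^ 2 ≤ (n * n) * X' ^ 2 := by
    calc (n * n) * (2 ^ R * X) ^ 2 = ((2 ^ R) ^ 2 * (n * n)) * X ^ 2 := by ring
      _ ≤ 16 ^ R * X ^ 2 := Nat.mul_le_mul_right _ h2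
      _ ≤ X' ^ 2 * (n * n) := h1
      _ = (n * n) * X' ^ 2 := by ring
  have h4 : (2 ^ R * X) ^ 2 ≤ X' ^ 2 := Nat.le_of_mul_le_mul_left h3 (by positivity)
  exact (Nat.pow_le_pow_iff_left (by norm_num)).mp h4

lemma pot_sup_edge {G : SimpleGraph V} {a b : V} (hab : a ≠ b) (R : ℕ)
    (hdisj : Disjoint (ball G a R) (ball G b R)) (hn : Fintype.card V ≤ 2 ^ R) :
    2 ^ R * pot G R ≤ pot (G ⊔ SimpleGraph.edge a b) R := by
  classical
  set G' := G ⊔ SimpleGraph.edge a b with hG'
  have hle : G ≤ G' := le_sup_left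
  have hadj : G'.Adj a b := by
    simp [hG', SimpleGraph.sup_adj, SimpleGraph.edge_adj, hab]
  have hkey := key_pair hle hadj R hdisj hn
  have hb : b ∈ univ.erase a := mem_erase.mpr ⟨hab.symm, mem_univ b⟩
  have split : ∀ H : SimpleGraph V, pot H R
      = T H R a * T H R b * ∏ v ∈ (univ.erase a).erase b, T H R v := by
    intro H
    simp only [pot]
    rw [← mul_prod_erase univ (T H R) (mem_univ a), ← mul_prod_erase _ (T H R) hb]
    ring
  rw [split G, split G']
  calc 2 ^ R * (T G R a * T G R b * ∏ v ∈ (univ.erase a).erase b, T G R v)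
      = (2 ^ R * (T G R a * T G R b)) * ∏ v ∈ (univ.erase a).erase b, T G R v := by ring
    _ ≤ (T G' R a * T G' R b) * ∏ v ∈ (univ.erase a).erase b, T G' R v :=
        Nat.mul_le_mul hkey (prod_le_prod (fun _ _ => Nat.zero_le _) (fun v _ => T_mono hle R v))

lemma pot_le (G : SimpleGraph V) (R : ℕ) : pot G R ≤ ((Fintype.card V) ^ R) ^ (Fintype.card V) := by
  have hT : ∀ v, T G R v ≤ (Fintype.card V) ^ R := by
    intro v
    have := prod_le_pow_card (range R) (fun r => (ball G v (r + 1)).card) (Fintype.card V)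
      (fun r _ => card_le_univ _)
    simp only [card_range] at this
    exact this
  have := prod_le_pow_card (univ : Finset V) (T G R) ((Fintype.card V) ^ R) (fun v _ => hT v)
  simp only [card_univ] at this
  exact this

/-- A walk from `x` to `y` with at most `h` hops, all of whose edges have weight at most `L`. -/
def Conn (G : SimpleGraph V) (W : Sym2 V → ℝ) (L : ℝ) (h : ℕ) (x y : V) : Prop :=
  ∃ p : G.Walk x y, p.length ≤ h ∧ ∀ e ∈ p.edges, W e ≤ L

lemma Conn.mono {G G' : SimpleGraph V} (hle : G ≤ G') {W : Sym2 V → ℝ} {L : ℝ} {h : ℕ} {x y : V}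
    (hc : Conn G W L h x y) : Conn G' W L h x y := by
  obtain ⟨p, hp, hW⟩ := hc
  refine ⟨p.mapLe hle, by simpa using hp, ?_⟩
  intro e he
  rw [SimpleGraph.Walk.edges_mapLe_eq_edges] at he
  exact hW e he

lemma card_edgeFinset_eq {G H : SimpleGraph V} (i : Fintype G.edgeSet) (j : Fintype H.edgeSet)
    (h : G = H) : (@SimpleGraph.edgeFinset V G i).card = (@SimpleGraph.edgeFinset V H j).card := by
  subst h
  apply congrArg Finset.card
  ext e
  simp only [SimpleGraph.mem_edgeFinset]

/-- The greedy hop spanner. -/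
theorem exists_spanner (W : V → V → ℝ) (hW : ∀ u v, W u v = W v u) (R : ℕ) (hR1 : 1 ≤ R)
    (hR : Fintype.card V ≤ 2 ^ R) :
    ∃ G : SimpleGraph V, G.edgeFinset.card ≤ Fintype.card V * R ∧
      ∀ x y, x ≠ y → ∃ p : G.Walk x y, p.length ≤ 2 * R ∧
        ∀ e ∈ p.edges, Sym2.lift ⟨W, hW⟩ e ≤ W x y := by
  classical
  let W' : Sym2 V → ℝ := Sym2.lift ⟨W, hW⟩
  have hW' : ∀ u v, W' s(u, v) = W u v := fun u v => by simp [W']
  let P : Finset (V × V) → Prop := fun F =>
    ∃ (G : SimpleGraph V) (k : ℕ), G.edgeFinset.card ≤ k ∧ (2 ^ R) ^ k ≤ pot G R ∧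
      (∀ u v, G.Adj u v → ∃ b ∈ F, W u v = W b.1 b.2) ∧
      (∀ a ∈ F, a.1 ≠ a.2 → Conn G W' (W a.1 a.2) (2 * R) a.1 a.2)
  have hP : P univ := by
    refine Finset.induction_on_max_value (fun a : V × V => W a.1 a.2) (univ : Finset (V × V)) ?_ ?_
    · refine ⟨⊥, 0, by simp, ?_, by simp, by simp⟩
      have : 0 < pot (⊥ : SimpleGraph V) R := prod_pos (fun v _ => T_pos (⊥ : SimpleGraph V) R v)
      rw [pow_zero]
      exact this
    · rintro ⟨x, y⟩ s _ hmax ⟨G, k, hcard, hpot, hedge, hconn⟩
      simp only at hmax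
      have hedgeW : ∀ e ∈ G.edgeSet, W' e ≤ W x y := by
        intro e
        induction e using Sym2.ind with
        | _ u v =>
          intro he
          obtain ⟨b, hb, hb'⟩ := hedge u v (by simpa using he)
          rw [hW', hb']
          exact hmax b hb
      by_cases hxy : x = y
      · refine ⟨G, k, hcard, hpot, ?_, ?_⟩
        · intro u v huv
          obtain ⟨b, hb, hb'⟩ := hedge u v huv
          exact ⟨b, mem_insert_of_mem hb, hb'⟩
        · intro a ha hne
          rcases mem_insert.mp ha with rfl | ha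
          · exact absurd hxy hne
          · exact hconn a ha hne
      by_cases hd : Disjoint (ball G x R) (ball G y R)
      · have hnadj : ¬ G.Adj x y := by
          intro hadj
          have h1 : y ∈ ball G x R := ball_mono_radius G x hR1 (by
            have := ball_step hadj 0
            exact this (by simp [ball]))
          exact (Finset.disjoint_left.mp hd h1) (self_mem_ball G y R)
        set G' := G ⊔ SimpleGraph.edge x y with hG'
        have hle : G ≤ G' := le_sup_left
        have hadj' : G'.Adj x y := by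
          simp [hG', SimpleGraph.sup_adj, SimpleGraph.edge_adj, hxy]
        refine ⟨G', k + 1, ?_, ?_, ?_, ?_⟩
        · have h := G.card_edgeFinset_sup_edge hnadj hxy
          refine le_trans (le_of_eq ?_) (Nat.succ_le_succ hcard)
          exact (card_edgeFinset_eq _ _ hG').trans
            (h.trans (congrArg (· + 1) (card_edgeFinset_eq _ _ rfl)))
        · calc (2 ^ R) ^ (k + 1) = 2 ^ R * (2 ^ R) ^ k := by ring
            _ ≤ 2 ^ R * pot G R := Nat.mul_le_mul_left _ hpot
            _ ≤ pot G' R := pot_sup_edge hxy R hd hR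
        · intro u v huv
          simp only [hG', SimpleGraph.sup_adj, SimpleGraph.edge_adj] at huv
          rcases huv with huv | ⟨h1, _⟩
          · obtain ⟨b, hb, hb'⟩ := hedge u v huv
            exact ⟨b, mem_insert_of_mem hb, hb'⟩
          · rcases h1 with ⟨hu, hv⟩ | ⟨hu, hv⟩
            · exact ⟨(x, y), mem_insert_self _ _, by rw [hu, hv]⟩
            · exact ⟨(x, y), mem_insert_self _ _, by rw [hu, hv]; exact hW y x⟩
        · intro a ha hne
          rcases mem_insert.mp ha with rfl | ha
          · refine ⟨SimpleGraph.Walk.cons hadj' SimpleGraph.Walk.nil, ?_, ?_⟩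
            · simp only [SimpleGraph.Walk.length_cons, SimpleGraph.Walk.length_nil]
              omega
            · intro e he
              simp only [SimpleGraph.Walk.edges_cons, SimpleGraph.Walk.edges_nil,
                List.mem_singleton] at he
              subst he
              rw [hW']
          · exact (hconn a ha hne).mono hle
      · obtain ⟨z, hz1, hz2⟩ := Finset.not_disjoint_iff.mp hd
        obtain ⟨p, hp⟩ := exists_walk_of_mem_ball hz1
        obtain ⟨q, hq⟩ := exists_walk_of_mem_ball hz2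
        refine ⟨G, k, hcard, hpot, ?_, ?_⟩
        · intro u v huv
          obtain ⟨b, hb, hb'⟩ := hedge u v huv
          exact ⟨b, mem_insert_of_mem hb, hb'⟩
        · intro a ha hne
          rcases mem_insert.mp ha with rfl | ha
          · refine ⟨p.append q.reverse, ?_, ?_⟩
            · simp only [SimpleGraph.Walk.length_append, SimpleGraph.Walk.length_reverse]
              omega
            · intro e he
              exact hedgeW e ((p.append q.reverse).edges_subset_edgeSet he)
          · exact hconn a ha hne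
  obtain ⟨G, k, hcard, hpot, -, hconn⟩ := hP
  refine ⟨G, ?_, ?_⟩
  · -- edge count
    have h1 : (2 ^ R) ^ k ≤ (2 ^ R) ^ (R * Fintype.card V) := by
      calc (2 ^ R) ^ k ≤ pot G R := hpot
        _ ≤ ((Fintype.card V) ^ R) ^ (Fintype.card V) := pot_le G R
        _ ≤ ((2 ^ R) ^ R) ^ (Fintype.card V) :=
            Nat.pow_le_pow_left (Nat.pow_le_pow_left hR R) _
        _ = (2 ^ R) ^ (R * Fintype.card V) := by rw [pow_mul]
    have h2 : 1 < 2 ^ R := Nat.one_lt_two_pow (by omega)
    have h3 : k ≤ R * Fintype.card V := (Nat.pow_le_pow_iff_right h2).mp h1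
    calc _ ≤ k := hcard
      _ ≤ _ := by rw [mul_comm]; exact h3
  · intro x y hxy
    exact hconn (x, y) (mem_univ _) hxy

end

end Vale.Agent.helper6.L
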