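import Mathlib
import Vale.Agent.helper6.L.Spanner
import Vale.Agent.helper6.L.Sampling

set_option autoImplicit false

open Finset

namespace Vale.Agent.helper6.L

noncomputable section

/-- The `ℓ_p` norm on `ℝ^k`. -/
def lpNorm {k : ℕ} (p : ℝ) (v : Fin k → ℝ) : ℝ := (∑ i, |v i| ^ p) ^ (1 / p)

/-- Power mean inequality for a finite sum. -/
lemma sum_rpow_le {α : Type*} (F : Finset α) (z : α → ℝ) (hz : ∀ i ∈ F, 0 ≤ z i) {p : ℝ}
    (hp : 1 ≤ p) :
    (∑ i ∈ F, z i) ^ p ≤ (F.card : ℝ) ^ (p - 1) * ∑ i ∈ F, z i ^ p := by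
  have hp0 : p ≠ 0 := by linarith
  rcases F.eq_empty_or_nonempty with rfl | hF
  · simp [Real.zero_rpow hp0]
  have hc : (0 : ℝ) < F.card := by exact_mod_cast hF.card_pos
  have h := Real.rpow_arith_mean_le_arith_mean_rpow F (fun _ => (F.card : ℝ)⁻¹) z
    (fun _ _ => (inv_pos.mpr hc).le) (by simp [hc.ne']) hz hp
  simp only [← mul_sum] at h
  have hsum : 0 ≤ ∑ i ∈ F, z i := sum_nonneg hz
  rw [Real.mul_rpow (inv_pos.mpr hc).le hsum, Real.inv_rpow hc.le] at h
  have hcp : (0 : ℝ) < (F.card : ℝ) ^ p := Real.rpow_pos_of_pos hc p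
  have h2 : (∑ i ∈ F, z i) ^ p ≤ (F.card : ℝ) ^ p * ((F.card : ℝ)⁻¹ * ∑ i ∈ F, z i ^ p) := by
    have := mul_le_mul_of_nonneg_left h hcp.le
    rwa [← mul_assoc, mul_inv_cancel₀ hcp.ne', one_mul] at this
  calc _ ≤ _ := h2
    _ = (F.card : ℝ) ^ (p - 1) * ∑ i ∈ F, z i ^ p := by
        rw [Real.rpow_sub_one hc.ne']
        field_simp

variable {V : Type*}

/-- Telescoping along a walk. -/
lemma walk_bound {G : SimpleGraph V} (f : V → ℝ) (g : Sym2 V → ℝ)
    (hg : ∀ a b, g s(a, b) = |f a - f b|) {u v : V} (w : G.Walk u v) :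
    |f u - f v| ≤ (w.edges.map g).sum := by
  induction w with
  | nil => simp
  | cons h q ih =>
    rename_i a b c
    simp only [SimpleGraph.Walk.edges_cons, List.map_cons, List.sum_cons, hg]
    calc |f a - f c| = |(f a - f b) + (f b - f c)| := by ring_nf
      _ ≤ |f a - f b| + |f b - f c| := abs_add_le _ _
      _ ≤ _ := by linarith

end

section Main

open Classical

noncomputable section

variable {n m : ℕ} (x : Fin n → Fin m → ℝ) (p : ℝ)

/-- The `p`-th power of the distance between two points. -/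
def wDist (u v : Fin n) : ℝ := ∑ i, |x u i - x v i| ^ p

lemma wDist_symm (u v : Fin n) : wDist x p u v = wDist x p v u := by
  simp only [wDist, abs_sub_comm]

/-- Edge weight. -/
def wEdge : Sym2 (Fin n) → ℝ := Sym2.lift ⟨wDist x p, wDist_symm x p⟩

/-- Coordinate difference on an edge. -/
def gEdge (i : Fin m) : Sym2 (Fin n) → ℝ :=
  Sym2.lift ⟨fun u v => |x u i - x v i|, fun u v => by simp only [abs_sub_comm]⟩

lemma wEdge_eq_sum (e : Sym2 (Fin n)) : wEdge x p e = ∑ i, gEdge x i e ^ p := by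
  induction e using Sym2.ind with
  | _ u v => simp [wEdge, gEdge, wDist]

lemma gEdge_nonneg (i : Fin m) (e : Sym2 (Fin n)) : 0 ≤ gEdge x i e := by
  induction e using Sym2.ind with
  | _ u v => simp [gEdge]

lemma gEdge_rpow_le (hp : 1 ≤ p) (i : Fin m) (e : Sym2 (Fin n)) :
    gEdge x i e ^ p ≤ wEdge x p e := by
  rw [wEdge_eq_sum]
  exact single_le_sum (f := fun i => gEdge x i e ^ p)
    (fun j _ => Real.rpow_nonneg (gEdge_nonneg x j e) p) (mem_univ i)

variable (G : SimpleGraph (Fin n)) (h : ℕ)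

/-- The importance weight of a coordinate. -/
def tau (i : Fin m) : ℝ :=
  (h : ℝ) ^ (p - 1) * ∑ e ∈ G.edgeFinset, gEdge x i e ^ p / wEdge x p e

lemma tau_nonneg (i : Fin m) : 0 ≤ tau x p G h i := by
  refine mul_nonneg (Real.rpow_nonneg (Nat.cast_nonneg h) _) (sum_nonneg (fun e _ => ?_))
  exact div_nonneg (Real.rpow_nonneg (gEdge_nonneg x i e) p) (by
    rw [wEdge_eq_sum]
    exact sum_nonneg (fun j _ => Real.rpow_nonneg (gEdge_nonneg x j e) p))

lemma sum_tau_le : ∑ i, tau x p G h i ≤ (h : ℝ) ^ (p - 1) * G.edgeFinset.card := by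
  simp only [tau]
  rw [← mul_sum]
  refine mul_le_mul_of_nonneg_left ?_ (Real.rpow_nonneg (Nat.cast_nonneg h) _)
  rw [sum_comm]
  calc ∑ e ∈ G.edgeFinset, ∑ i, gEdge x i e ^ p / wEdge x p e
      ≤ ∑ _e ∈ G.edgeFinset, (1 : ℝ) := by
        refine sum_le_sum (fun e _ => ?_)
        rw [← sum_div, ← wEdge_eq_sum]
        exact div_self_le_one _
    _ = _ := by simp

/-- The key estimate: the coordinate mass of any pair is dominated by `tau`. -/
lemma mass_le_tau (hp : 1 ≤ p) {u v : Fin n} (huv : 0 < wDist x p u v)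
    (w : G.Walk u v) (hlen : w.length ≤ h) (hW : ∀ e ∈ w.edges, wEdge x p e ≤ wDist x p u v)
    (i : Fin m) :
    |x u i - x v i| ^ p / wDist x p u v ≤ tau x p G h i := by
  classical
  set b := w.bypass with hb
  have hpath : b.IsPath := SimpleGraph.Walk.bypass_isPath w
  have hnodup : b.edges.Nodup := hpath.isTrail.edges_nodup
  set F := b.edges.toFinset with hF
  have hFcard : (F.card : ℝ) ≤ h := by
    have h1 : F.card = b.edges.length := List.toFinset_card_of_nodup hnodup
    have h2 : b.edges.length = b.length := SimpleGraph.Walk.length_edges b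
    have h3 : b.length ≤ w.length := SimpleGraph.Walk.length_bypass_le_length w
    exact_mod_cast (by omega : F.card ≤ h)
  have hsum : (b.edges.map (gEdge x i)).sum = ∑ e ∈ F, gEdge x i e :=
    (List.sum_toFinset (gEdge x i) hnodup).symm
  have hwalk : |x u i - x v i| ≤ ∑ e ∈ F, gEdge x i e := by
    rw [← hsum]
    exact walk_bound (fun a => x a i) (gEdge x i) (fun a b => by simp [gEdge]) b
  have h1 : |x u i - x v i| ^ p ≤ (h : ℝ) ^ (p - 1) * ∑ e ∈ F, gEdge x i e ^ p := by
    calc |x u i - x v i| ^ p ≤ (∑ e ∈ F, gEdge x i e) ^ p :=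
          Real.rpow_le_rpow (abs_nonneg _) hwalk (by linarith)
      _ ≤ (F.card : ℝ) ^ (p - 1) * ∑ e ∈ F, gEdge x i e ^ p :=
          sum_rpow_le F _ (fun e _ => gEdge_nonneg x i e) hp
      _ ≤ (h : ℝ) ^ (p - 1) * ∑ e ∈ F, gEdge x i e ^ p := by
          apply mul_le_mul_of_nonneg_right
          · exact Real.rpow_le_rpow (Nat.cast_nonneg _) hFcard (by linarith)
          · exact sum_nonneg (fun e _ => Real.rpow_nonneg (gEdge_nonneg x i e) p)
  have hsub : F ⊆ G.edgeFinset := by
    intro e he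
    have he' : e ∈ b.edges := List.mem_toFinset.mp he
    rw [SimpleGraph.mem_edgeFinset]
    exact b.edges_subset_edgeSet he'
  have hterm : ∀ e ∈ F, gEdge x i e ^ p / wDist x p u v ≤ gEdge x i e ^ p / wEdge x p e := by
    intro e he
    have he' : e ∈ b.edges := List.mem_toFinset.mp he
    have he'' : e ∈ w.edges := SimpleGraph.Walk.edges_bypass_subset_edges w he'
    have hle := hW e he''
    have hg := gEdge_rpow_le x p hp i e
    have hg0 : 0 ≤ gEdge x i e ^ p := Real.rpow_nonneg (gEdge_nonneg x i e) p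
    rcases (hg0.trans hg).lt_or_eq with hpos | hzero
    · exact div_le_div_of_nonneg_left hg0 hpos hle
    · have : gEdge x i e ^ p = 0 := le_antisymm (by rw [← hzero] at hg; exact hg) hg0
      simp [this]
  calc |x u i - x v i| ^ p / wDist x p u v
      ≤ ((h : ℝ) ^ (p - 1) * ∑ e ∈ F, gEdge x i e ^ p) / wDist x p u v :=
        div_le_div_of_nonneg_right h1 huv.le
    _ = (h : ℝ) ^ (p - 1) * ∑ e ∈ F, gEdge x i e ^ p / wDist x p u v := by
        rw [mul_div_assoc, sum_div]
    _ ≤ (h : ℝ) ^ (p - 1) * ∑ e ∈ F, gEdge x i e ^ p / wEdge x p e := by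
        apply mul_le_mul_of_nonneg_left _ (Real.rpow_nonneg (Nat.cast_nonneg h) _)
        exact sum_le_sum hterm
    _ ≤ tau x p G h i := by
        apply mul_le_mul_of_nonneg_left _ (Real.rpow_nonneg (Nat.cast_nonneg h) _)
        refine sum_le_sum_of_subset_of_nonneg hsub (fun e _ _ => ?_)
        exact div_nonneg (Real.rpow_nonneg (gEdge_nonneg x i e) p) (by
          rw [wEdge_eq_sum]
          exact sum_nonneg (fun j _ => Real.rpow_nonneg (gEdge_nonneg x j e) p))

end

end Main

end Vale.Agent.helper6.L
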